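import Crest.Agent.N250.Ov.Bar

/-!
# Row 250, block (B2), helper21: `ovStmt`.
-/

set_option autoImplicit false
set_option linter.unusedSectionVars false

open Set Metric Filter Topology Function MeasureTheory

noncomputable section

namespace Crest.Agent.N250.Ov
open B2 Cc St

variable {ι κ : Type} [Fintype ι] [Fintype κ] [DecidableEq κ]
variable {f : ℝ → (ι ⊕ κ → ℂ) → ℂ} {m : κ → ℝ → (ι ⊕ κ → ℂ) → ℂ} {φ : ℂ → ℂ} {M : ℝ → ℝ}
  {ω : ℂ} {d : κ → ℝ} {r δ B0 C g : ℝ} {T : ℂ → ℂ} {al R : ℝ} {q : ℕ} {P : ℕ → ι ⊕ κ → ℝ}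
  {lam Lam th s1 C1 θ : ℝ} {N : ℕ} {f0 : ℂ} {Z : ℝ → ℂ → ι ⊕ κ → ℂ}

theorem ne_of_ord (h : Ord P q al) : Nonempty κ := by
  by_contra hk
  rw [not_nonempty_iff] at hk
  have := h.al_pos
  rw [h.al_eq, Subsingleton.elim (aa (P q)) 0, norm_zero] at this
  exact lt_irrefl _ this

theorem cmp2 (hR : Rx f m φ M ω d r δ B0 C g) {B B' : ℝ} (hB : B0 < B) (hB' : B0 < B')
    {z : ι ⊕ κ → ℂ} (hz : z ∈ DomB r δ d B) (hz' : z ∈ DomB r δ d B') :
    ‖f B z - f B' z‖ ≤
      8 * ‖ω‖ * Fintype.card κ * C * (Real.exp (-B / 4) + Real.exp (-B' / 4)) := by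
  have hC := hR.C_nonneg
  rcases le_total B B' with h | h
  · rw [norm_sub_rev]
    refine (hR.cmp hB h hz').trans ?_
    gcongr
    exact le_add_of_nonneg_right (Real.exp_pos _).le
  · refine (hR.cmp hB' h hz).trans ?_
    gcongr
    exact le_add_of_nonneg_left (Real.exp_pos _).le

theorem lev_inv (B0 σ : ℝ) : lev B0 σ⁻¹ = 2 * σ - B0 / 4 := by rw [lev, div_inv_eq_mul]

theorem mem_of_disc (hR : Rx f m φ M ω d r δ B0 C g) {hB : 0 < B0} {ρ : ℝ} (h0 : 0 < ρ)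
    (h1 : ρ < 1 / B0) {z : ι ⊕ κ → ℂ}
    (hz : z ∈ (cells B0 hB).Dom r fun _ : κ => (cells B0 hB).disc ρ) :
    z ∈ DomB r δ d (lev B0 ρ) :=
  hR.mem_lev h0 h1 hz.1 fun j => mem_ball_zero_iff.1 (hz.2 j)

/-- the `∂_s Z` term is small -/
theorem grad_le (hR : Rx f m φ M ω d r δ B0 C g) {hB : 0 < B0} (hO : Ord P q al)
    (hC : Cv (cells B0 hB) (fam f B0) r P q al lam Lam th s1 C1 N f0 Z) (hl : 1 / 4 < lam)
    (ht : 2 * lam ≤ th ^ 2) (hL : 1 < Lam) (n : ℕ) : ∃ K, 0 ≤ K ∧ ∀ (w t : ℂ), 0 ≤ w.re →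
      s1 < Real.exp w.re / 2 → t ∈ An al q th Lam (Real.exp w.re / 2) → B0 < hh w →
      ball (Z (Real.exp w.re / 2) t) (Real.exp (-w.re) ^ n) ⊆ DomB r δ d (hh w) →
      ‖fderiv ℂ (f (hh w)) (Z (Real.exp w.re / 2) t)‖ * Real.exp (hh w / 4) *
        Real.exp (-lam * (Real.exp w.re / 2)) ≤ K * Real.exp (-w.re) := by
  have := ne_of_ord hO
  have hal := hO.al_pos
  have hth := hC.th_pos
  have hth1 := hC.th_lt
  have hC0 := hR.C_nonneg
  set a := 2 * lam - 1 / 2 with ha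
  have ha0 : 0 < a := by linarith
  have hl2 : lam ≤ 1 / 2 := by nlinarith
  obtain ⟨C2, hC2, hp⟩ := poly_abs (N + n) (a := a) (b := a / 2) (A := 2 + al * Lam)
    (by linarith) (by positivity)
  set K0 := 8 * ‖ω‖ * Fintype.card κ * C with hK0
  have hK : 0 ≤ K0 := by positivity
  refine ⟨(|C1| + 2 * K0 * (1 + Real.exp (B0 / 16))) * C2 * (4 / a), by positivity,
    fun w t hw hs hA hL0 hb => ?_⟩
  have hle := hh_le w
  set s := Real.exp w.re / 2 with hs'
  have h1 : 1 ≤ 2 * s := by have := Real.one_le_exp hw; linarith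
  have hs0 : 0 < s := by linarith
  set σ := sg al q t with hσ
  have hσ1 : th * s < σ := hA.1
  have hσ0 : 0 < σ := (mul_pos hth hs0).trans hσ1
  have p0 : th ^ 2 * s ≤ th * σ := by
    rw [sq, mul_assoc]; exact mul_le_mul_of_nonneg_left hσ1.le hth.le
  have p1 : a * s = 2 * (lam * s) - s / 2 := by rw [ha]; ring
  have p2 : lam * s ≤ 1 / 2 * s := mul_le_mul_of_nonneg_right hl2 hs0.le
  have p3 : 2 * lam * s ≤ th ^ 2 * s := mul_le_mul_of_nonneg_right ht hs0.le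
  have p4 : hh w ≤ 2 * s := by linarith
  have hρ : (th * σ)⁻¹ ≤ (th ^ 2 * s)⁻¹ := inv_anti₀ (by positivity) p0
  obtain ⟨d1, d2⟩ := hC.dom s hs t hA
  have hρ1 : (th * σ)⁻¹ < 1 / B0 := hρ.trans_lt d1
  have hρ0 : 0 < (th * σ)⁻¹ := by positivity
  have g1 := hC.grad s hs t hA _ le_rfl hρ
  rw [show Fd (cells B0 hB) (fam f B0) (th * sg al q t)⁻¹ = f (lev B0 (th * σ)⁻¹) from
    fam_const hρ0.le] at g1
  have ht0 : 0 < ‖t‖ := norm_pos_iff.2 fun e => by
    rw [hσ, e, sg, norm_zero, zero_pow hO.q_pos.ne', mul_zero, inv_zero] at hσ0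
    exact lt_irrefl _ hσ0
  set τ := min ‖t‖ (Real.exp (-w.re)) with hτ
  have hτ0 : 0 < τ := lt_min ht0 (Real.exp_pos _)
  have hτ1 : τ ≤ 1 := (min_le_right _ _).trans (Real.exp_le_one_iff.2 (by linarith))
  have hτi : τ⁻¹ ≤ (2 + al * Lam) * s := by
    have e1 : (‖t‖⁻¹) ^ q = al * σ := by rw [hσ, sg, inv_pow]; field_simp
    have e2 : al * σ ≤ al * (Lam * s) := mul_le_mul_of_nonneg_left hA.2.le hal.le
    have e3 : ‖t‖⁻¹ ≤ 1 + (‖t‖⁻¹) ^ q := by
      rcases le_total ‖t‖⁻¹ 1 with h | h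
      · exact h.trans (le_add_of_nonneg_right (by positivity))
      · linarith [le_self_pow₀ h hO.q_pos.ne']
    have e4 : 0 ≤ al * (Lam * s) := by positivity
    rcases min_choice ‖t‖ (Real.exp (-w.re)) with h | h <;> rw [hτ, h]
    · linarith
    · rw [Real.exp_neg, inv_inv]; linarith
  have r1 : τ ^ (N + n) ≤ ‖t‖ ^ N :=
    (pow_le_pow_of_le_one hτ0.le hτ1 (by omega)).trans
      (pow_le_pow_left₀ hτ0.le (min_le_left _ _) _)
  have r2 : τ ^ (N + n) ≤ Real.exp (-w.re) ^ n :=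
    (pow_le_pow_of_le_one hτ0.le hτ1 (by omega)).trans
      (pow_le_pow_left₀ hτ0.le (min_le_right _ _) _)
  have r3 : τ ^ (N + n) ≤ 1 := pow_le_one₀ hτ0.le hτ1
  have r0 : 0 < τ ^ (N + n) := by positivity
  have s1' := (ball_subset_ball r2).trans hb
  have s2' : ball (Z s t) (τ ^ (N + n)) ⊆ DomB r δ d (lev B0 (th * σ)⁻¹) := fun y hy =>
    mem_of_disc hR hρ0 hρ1 (d2 _ le_rfl hρ1 (ball_subset_ball r1 hy))
  have hL2 := hR.lt_lev hρ0 hρ1
  have g2 := grad_cmp r0 ((hR.hol _ hL0).mono s1') ((hR.hol _ hL2).mono s2')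
    fun y hy => cmp2 hR hL0 hL2 (s1' hy) (s2' hy)
  have g3 := (norm_le_norm_sub_add _ _).trans (add_le_add g2 g1)
  have x1 : Real.exp (-lam * s) * Real.exp (hh w / 4) * Real.exp (-lam * s) ≤
      Real.exp (-a * s) := by
    rw [← Real.exp_add, ← Real.exp_add]; exact Real.exp_le_exp.2 (by linarith)
  have x2 : Real.exp (-hh w / 4) * Real.exp (hh w / 4) * Real.exp (-lam * s) ≤
      Real.exp (-a * s) := by
    rw [← Real.exp_add, ← Real.exp_add]; exact Real.exp_le_exp.2 (by linarith)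
  have x3 : Real.exp (-lev B0 (th * σ)⁻¹ / 4) * Real.exp (hh w / 4) * Real.exp (-lam * s) ≤
      Real.exp (B0 / 16) * Real.exp (-a * s) := by
    rw [← Real.exp_add, ← Real.exp_add, ← Real.exp_add, lev_inv]
    exact Real.exp_le_exp.2 (by linarith)
  have x4 : Real.exp (-(a / 2) * s) ≤ 4 / a * Real.exp (-w.re) := by
    have e1 := Real.add_one_le_exp (a / 2 * s)
    rw [neg_mul, Real.exp_neg, Real.exp_neg, show Real.exp w.re = 2 * s by rw [hs']; ring]
    refine (inv_anti₀ (by positivity : 0 < a / 2 * s) (by linarith)).trans (le_of_eq ?_)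
    field_simp; norm_num
  have x5 := hp s τ hs0 hτ0 hτi
  have x6 : Real.exp (-a * s) ≤ Real.exp (-a * s) / τ ^ (N + n) :=
    le_div_self (Real.exp_pos _).le r0 r3
  calc _ ≤ (2 * (K0 * (Real.exp (-hh w / 4) + Real.exp (-lev B0 (th * σ)⁻¹ / 4))) / τ ^ (N + n) +
        |C1| * Real.exp (-lam * s)) * Real.exp (hh w / 4) * Real.exp (-lam * s) := by
        gcongr
        refine g3.trans ?_
        gcongr
        exact le_abs_self _
    _ = 2 * K0 * (Real.exp (-hh w / 4) * Real.exp (hh w / 4) * Real.exp (-lam * s) +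
        Real.exp (-lev B0 (th * σ)⁻¹ / 4) * Real.exp (hh w / 4) * Real.exp (-lam * s)) /
          τ ^ (N + n) + |C1| * (Real.exp (-lam * s) * Real.exp (hh w / 4) *
            Real.exp (-lam * s)) := by ring
    _ ≤ 2 * K0 * (Real.exp (-a * s) + Real.exp (B0 / 16) * Real.exp (-a * s)) / τ ^ (N + n) +
        |C1| * (Real.exp (-a * s) / τ ^ (N + n)) := by
        gcongr
        exact x1.trans x6
    _ = (|C1| + 2 * K0 * (1 + Real.exp (B0 / 16))) * (Real.exp (-a * s) / τ ^ (N + n)) := by ring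
    _ ≤ (|C1| + 2 * K0 * (1 + Real.exp (B0 / 16))) * (C2 * (4 / a * Real.exp (-w.re))) := by
        gcongr
        exact x5.trans (by gcongr)
    _ = _ := by ring

/-- the sharp rate -/
theorem rate (hR : Rx f m φ M ω d r δ B0 C g) {hB : 0 < B0} (hO : Ord P q al) (hth : th < 1)
    (hl : 1 / 4 < lam) (hV : Val2 (cells B0 hB) (fam f B0) r (1 / 2) q al lam Lam th f0 Z)
    (hT : Tin T al q R) {x0 : ℝ}
    (h : ∀ w ∈ QQ x0 θ, (T w)⁻¹ ∈ An al q th Lam (Real.exp w.re / 2) ∧ B0 < hh w ∧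
      zz Z T w ∈ DomB r δ d (hh w)) (ε : ℝ) (hε : 0 < ε) :
    ∃ K, ∀ w ∈ QQ x0 θ, ‖GG f ω f0 Z T w‖ ≤ K * Real.exp (-(1 / 4 - ε) * hh w) := by
  have := ne_of_ord hO
  have hC0 := hR.C_nonneg
  set η := max (max th (1 - ε)) (1 / 2) with hη
  have η1 : η < 1 := by simp only [hη, max_lt_iff]; exact ⟨⟨hth, by linarith⟩, by norm_num⟩
  have η2 : 1 - ε ≤ η := (le_max_right _ _).trans (le_max_left _ _)
  have η3 : 1 / 2 ≤ η := le_max_right _ _
  obtain ⟨C', s2, hv⟩ := hV η ((le_max_left _ _).trans (le_max_left _ _)) η1 (η / 2) (by linarith)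
  obtain ⟨x1, -, -, hx1⟩ := hT.ev η1 one_lt_two
  obtain ⟨x2, hx2⟩ := ev_exp (max s2 (4 * B0))
  set K0 := 8 * ‖ω‖ * Fintype.card κ * C with hK0
  have hK : 0 ≤ K0 := by positivity
  refine ⟨‖ω⁻¹‖ * ((C + ‖f0‖) * Real.exp (Real.exp (max x1 x2) / 4) +
    (K0 * (1 + Real.exp (B0 / 16)) + 2 * |C'|)), fun w hw => ?_⟩
  obtain ⟨a1, a2, a3⟩ := h w hw
  have a4 := hh_le w
  have a0 : 0 < hh w := hR.B0_pos.trans a2
  rw [GG, norm_mul, mul_assoc]
  refine mul_le_mul_of_nonneg_left ?_ (norm_nonneg _)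
  set E := Real.exp (-(1 / 4 - ε) * hh w) with hE
  have hE0 : 0 < E := Real.exp_pos _
  rcases le_total w.re (max x1 x2) with hx | hx
  · have b1 : 1 ≤ Real.exp (Real.exp (max x1 x2) / 4) * E := by
      rw [hE, ← Real.exp_add]
      have := Real.exp_le_exp.2 hx
      exact Real.one_le_exp (by linarith [mul_pos hε a0])
    have b2 : ‖f (hh w) (zz Z T w) - f0‖ ≤ C + ‖f0‖ :=
      (norm_sub_le _ _).trans (by gcongr; exact hR.bdd _ a2 _ a3)
    have b3 : 0 ≤ (K0 * (1 + Real.exp (B0 / 16)) + 2 * |C'|) * E := by positivity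
    have b4 := mul_le_mul_of_nonneg_left b1 (by positivity : 0 ≤ C + ‖f0‖)
    linarith
  · have b1 := (hx1 w ((le_max_left _ _).trans hx)).1
    have b2 := hx2 w.re ((le_max_right _ _).trans hx)
    set s := Real.exp w.re / 2 with hs
    have hs0 : 0 < s := by positivity
    have a5 : hh w ≤ 2 * s := by linarith
    obtain ⟨c1, c2⟩ := hv s ((le_max_left _ _).trans_lt b2) _ a1
    set σ := η * sg al q (T w)⁻¹ with hσ
    have b3 : η ^ 2 * s ≤ σ := by
      rw [sq, mul_assoc]; exact mul_le_mul_of_nonneg_left b1.le (by linarith)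
    have b4 : B0 < σ := by
      have : (1 / 2) ^ 2 * s ≤ η ^ 2 * s := by gcongr
      linarith [(le_max_right _ _).trans_lt b2]
    have hσ0 : 0 < σ := hB.trans b4
    have hρ0 : 0 < σ⁻¹ := by positivity
    have hρ1 : σ⁻¹ < 1 / B0 := by rw [one_div]; exact inv_strictAnti₀ hB b4
    rw [show Fd (cells B0 hB) (fam f B0) σ⁻¹ = f (lev B0 σ⁻¹) from fam_const hρ0.le] at c2
    have c3 := cmp2 hR a2 (hR.lt_lev hρ0 hρ1) a3 (mem_of_disc hR hρ0 hρ1 c1)
    have η4 : 1 - 4 * ε ≤ η ^ 3 := by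
      have := one_add_mul_le_pow (a := η - 1) (by linarith) 3
      simp only [add_sub_cancel, Nat.cast_ofNat] at this
      linarith
    have η5 : (1 / 4 - ε) * hh w ≤ η / 2 * σ := by
      have e1 : (1 / 4 - ε) * hh w ≤ η ^ 3 / 4 * hh w := by gcongr; linarith
      have e2 : η ^ 3 / 4 * hh w ≤ η ^ 3 / 4 * (2 * s) := by gcongr
      have e3 : η / 2 * (η ^ 2 * s) ≤ η / 2 * σ := by gcongr
      linarith
    have y0 := mul_pos hε a0
    have y1 : Real.exp (-hh w / 4) ≤ E := Real.exp_le_exp.2 (by linarith)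
    have y2 : Real.exp (-lev B0 σ⁻¹ / 4) ≤ Real.exp (B0 / 16) * E := by
      rw [hE, ← Real.exp_add, lev_inv]
      have : η * σ ≤ 1 * σ := by gcongr
      exact Real.exp_le_exp.2 (by linarith)
    have y3 : Real.exp (-(η / 2) * σ) ≤ E := Real.exp_le_exp.2 (by linarith)
    have y4 : Real.exp (-(2 * lam) * s) ≤ E := by
      have : 1 / 4 * s ≤ lam * s := by gcongr
      exact Real.exp_le_exp.2 (by linarith)
    have y5 : ‖f (lev B0 σ⁻¹) (zz Z T w) - f0‖ ≤ |C'| * (E + E) :=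
      c2.trans (by gcongr; exact le_abs_self _)
    have y6 : ‖f (hh w) (zz Z T w) - f (lev B0 σ⁻¹) (zz Z T w)‖ ≤
        K0 * (E + Real.exp (B0 / 16) * E) := c3.trans (by gcongr)
    have y7 : 0 ≤ (C + ‖f0‖) * Real.exp (Real.exp (max x1 x2) / 4) * E := by positivity
    linarith [norm_sub_le_norm_sub_add_norm_sub (f (hh w) (zz Z T w))
      (f (lev B0 σ⁻¹) (zz Z T w)) f0]

theorem ovStmt : OvStmt := by
  intro ι κ _ _ _ f m φ M ω d r δ B0 C g hB P q al lam Lam th s1 C1 N f0 Z T R θ hR hO hC hl ht hL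
    hV hT h0 h1 hA hP
  obtain ⟨γ, φ', M', x2, hp, hpos⟩ := hP
  obtain ⟨x3, hm⟩ := mm_cont hR hC hL hT h1 hA
  obtain ⟨n, x1, hR1, hx1, h⟩ := ev_all hC hL hT h1 hA B0
  obtain ⟨K, hK, hg⟩ := grad_le hR hO hC hl ht hL n
  set x0 := max x1 (max x2 x3) with hx0
  have q1 : QQ x0 θ ⊆ QQ x1 θ := QQ_mono (le_max_left _ _)
  have q3 : QQ x0 θ ⊆ QQ x3 θ := QQ_mono ((le_max_right _ _).trans (le_max_right _ _))
  set G := GG f ω f0 Z T with hG
  set S : ℂ → ℂ := fun w => (fderiv ℝ G w 1 + Complex.I * fderiv ℝ G w Complex.I) / WW w with hS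
  set E : ℂ → ℂ := fun w => S w - ∑ j, mm m Z T j w with hE
  have c1 : ∀ w ∈ QQ x0 θ, ContDiffAt ℝ 1 G w := fun w hw =>
    GG_c1 hR (h w (q1 hw)).2.2.1 (h w (q1 hw)).2.2.2.2.1 (h w (q1 hw)).2.2.2.2.2
  have cS : ContinuousOn S (QQ x0 θ) := fun w hw => by
    have a := (c1 w hw).continuousAt_fderiv one_ne_zero
    exact (((a.clm_apply continuousAt_const).add (continuousAt_const.mul
      (a.clm_apply continuousAt_const))).div WW_cont.continuousAt
        (WW_ne (hw.2.trans h1))).continuousWithinAt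
  have cE : ContinuousOn E (QQ x0 θ) := cS.sub (continuousOn_finsetSum _ fun j _ => (hm j).mono q3)
  have bE : ∀ w ∈ QQ x0 θ, ‖E w‖ ≤ ‖ω⁻¹‖ * |C1| * K * Real.exp (-w.re) := fun w hw => by
    obtain ⟨a1, a2, a3, a4, a5, -⟩ := h w (q1 hw)
    obtain ⟨Z', b1, b2⟩ := GG_bar (f0 := f0) hR hC hT (hR1.trans_le (q1 hw).1) a1 a2 a3 a5
    have b3 := hg w _ (hx1.trans (q1 hw).1) a1 a2 a3 a4
    have b4 := le_WW (hw.2.trans h1)
    have b5 := WW_ne (hw.2.trans h1)
    have e : E w = ω⁻¹ * (Real.exp w.re / 2 : ℝ) * fderiv ℂ (f (hh w)) (zz Z T w) Z' / WW w := by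
      simp only [hE, hS, hG, b2]
      field_simp
      ring
    have b6 : ‖Z'‖ ≤ |C1| * Real.exp (-lam * (Real.exp w.re / 2)) :=
      b1.trans (by gcongr; exact le_abs_self _)
    rw [e, norm_div, norm_mul, norm_mul, Complex.norm_real, Real.norm_of_nonneg (by positivity)]
    calc _ ≤ ‖ω⁻¹‖ * (Real.exp w.re / 2) * (‖fderiv ℂ (f (hh w)) (zz Z T w)‖ *
          (|C1| * Real.exp (-lam * (Real.exp w.re / 2)))) /
          (Real.exp w.re / 2 * Real.exp (-hh w / 4)) := by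
          gcongr
          exact (ContinuousLinearMap.le_opNorm _ _).trans (by gcongr)
      _ = ‖ω⁻¹‖ * |C1| * (‖fderiv ℂ (f (hh w)) (zz Z T w)‖ * Real.exp (hh w / 4) *
          Real.exp (-lam * (Real.exp w.re / 2))) := by
          rw [neg_div, Real.exp_neg (hh w / 4)]; field_simp
      _ ≤ ‖ω⁻¹‖ * |C1| * (K * Real.exp (-w.re)) :=
          mul_le_mul_of_nonneg_left b3 (by positivity)
      _ = _ := by ring
  have hsum : ∀ w, ∑ j : Option κ, (j.elim E (mm m Z T)) w = S w := fun w => by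
    rw [Fintype.sum_option]; simp [hE]
  have pre : ∀ x s, (pt (fun _ => 0) x s).re = x := fun x s => by
    simp only [pt, Complex.add_re, Complex.ofReal_re, Complex.mul_re, Complex.I_re,
      Complex.ofReal_im, Complex.I_im]
    ring
  refine ⟨G, fderiv ℝ G, x0, fun j => j.elim E (mm m Z T), fun j => j.elim 0 γ,
    fun j => j.elim 0 φ', fun j => j.elim 0 M', h0, h1,
    fun w hw => ((c1 w hw).differentiableAt one_ne_zero).hasFDerivAt, fun w hw => ?_, ?_,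
    rate hR hO hC.th_lt hl hV hT fun w hw =>
      ⟨(h w (q1 hw)).2.1, (h w (q1 hw)).2.2.1, (h w (q1 hw)).2.2.2.2.1⟩, ?_, ?_⟩
  · rw [hsum]
    exact (mul_div_cancel₀ _ (WW_ne (hw.2.trans h1))).symm
  · simpa only [hsum] using cS
  · rintro (_ | j)
    · refine ⟨cont_slice cE, integrable_zero _ _ _, integrable_zero _ _ _, fun _ => le_rfl,
        fun _ => 0, 0, ‖ω⁻¹‖ * |C1| * K, 1 / 2, by norm_num, integrable_zero _ _ _,
        Or.inl fun _ => ⟨rfl, rfl⟩, fun x s hw => ?_, fun s e he => ?_⟩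
      · have := bE _ hw
        rw [pre] at this
        simpa [show (2 : ℝ)⁻¹ + 2⁻¹ = 1 by norm_num] using this
      · have t := (Real.tendsto_exp_neg_atTop_nhds_zero.const_mul (‖ω⁻¹‖ * |C1| * K))
        rw [mul_zero] at t
        filter_upwards [t.eventually (gt_mem_nhds he)] with x hx hw
        have := bE _ hw
        rw [pre] at this
        simpa using this.trans hx.le
    · exact Prof_mono (hp j) ((le_max_left _ _).trans (le_max_right _ _))
  · rw [Finset.sum_filter, Fintype.sum_option, Fintype.sum_option]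
    rw [Finset.sum_filter] at hpos
    simpa using hpos

end Crest.Agent.N250.Ov

end
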