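import Crest.Agent.N250.Ov.Defs
import Crest.Agent.N250.B2.Fam

/-!
# Row 250, block (B2), helper21: regularity of the curve `w ↦ (hh w, zz w)`.
-/

set_option autoImplicit false
set_option linter.unusedSectionVars false

open Set Metric Filter Topology Function MeasureTheory

noncomputable section

namespace Crest.Agent.N250.Ov
open B2 Cc St

variable {ι κ Γ : Type} [Fintype ι] [Fintype κ]
variable {f : ℝ → (ι ⊕ κ → ℂ) → ℂ} {m : κ → ℝ → (ι ⊕ κ → ℂ) → ℂ} {φ : ℂ → ℂ} {M : ℝ → ℝ}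
  {ω : ℂ} {d : κ → ℝ} {r δ B0 C g : ℝ}

theorem isOpen_dom (h : Rx f m φ M ω d r δ B0 C g) :
    IsOpen {p : ℝ × (ι ⊕ κ → ℂ) | B0 < p.1 ∧ p.2 ∈ DomB r δ d p.1} := by
  refine isOpen_iff_mem_nhds.2 fun p hp => ?_
  have h1 : ∀ᶠ x : ℝ × (ι ⊕ κ → ℂ) in 𝓝 p, B0 < x.1 :=
    continuousAt_const.eventually_lt continuousAt_fst hp.1
  have h2 : ∀ᶠ x : ℝ × (ι ⊕ κ → ℂ) in 𝓝 p, ∀ i, ‖x.2 (Sum.inl i)‖ < r :=
    eventually_all.2 fun i => ContinuousAt.eventually_lt (by fun_prop) continuousAt_const (hp.2.1 i)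
  have h3 : ∀ᶠ x : ℝ × (ι ⊕ κ → ℂ) in 𝓝 p, ∀ j, x.2 (Sum.inr j) ∈ DB δ (x.1 - d j - 1) := by
    refine eventually_all.2 fun j => ?_
    have h0 : p.1 - d j - 1 ≠ 0 := by linarith [h.lev_pos hp.1 j, h.B0_pos, hp.1]
    have a : ContinuousAt (fun x : ℝ × (ι ⊕ κ → ℂ) => 2 * δ / (x.1 - d j - 1)) p :=
      continuousAt_const.div (by fun_prop) h0
    have b : ContinuousAt (fun x : ℝ × (ι ⊕ κ → ℂ) => 2 * (1 + δ) / (x.1 - d j - 1)) p :=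
      continuousAt_const.div (by fun_prop) h0
    have c : ContinuousAt (fun x : ℝ × (ι ⊕ κ → ℂ) =>
        dist (x.2 (Sum.inr j)) ((2 * δ / (x.1 - d j - 1) : ℝ) : ℂ)) p :=
      Tendsto.dist (by fun_prop : ContinuousAt (fun x : ℝ × (ι ⊕ κ → ℂ) => x.2 (Sum.inr j)) p)
        (Complex.continuous_ofReal.continuousAt.comp a)
    exact c.eventually_lt b (hp.2.2 j)
  filter_upwards [h1, h2, h3] with x a b c using ⟨a, b, c⟩

theorem chi_ge {y : ℝ} (h : |y| ≤ 1) : 5 / 8 ≤ St.chi y := by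
  have : y ^ 2 ≤ 1 := by rw [← sq_abs]; nlinarith [abs_nonneg y]
  unfold St.chi; linarith

theorem chi_le (y : ℝ) : St.chi y ≤ 1 := by unfold St.chi; nlinarith [sq_nonneg y]

theorem hh_le (w : ℂ) : hh w ≤ Real.exp w.re :=
  mul_le_of_le_one_right (Real.exp_pos _).le (chi_le _)

theorem le_hh {w : ℂ} (h : |w.im| ≤ 1) : Real.exp w.re / 2 ≤ hh w := by
  have := chi_ge h
  have := Real.exp_pos w.re
  unfold hh; nlinarith

theorem hh_smooth : ContDiff ℝ 1 hh := by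
  have a : ContDiff ℝ 1 fun w : ℂ => w.re := Complex.reCLM.contDiff
  have b : ContDiff ℝ 1 fun w : ℂ => w.im := Complex.imCLM.contDiff
  unfold hh St.chi
  exact a.exp.mul (contDiff_const.sub ((contDiff_const.mul (b.pow 2)).div_const _))

variable {T : ℂ → ℂ} {al R : ℝ} {q : ℕ}

theorem sg_inv (al : ℝ) (q : ℕ) (τ : ℂ) : sg al q τ⁻¹ = ‖τ‖ ^ q / al := by
  rw [sg, norm_inv, inv_pow, mul_inv, inv_inv, div_eq_mul_inv, mul_comm]

/-- `sg (1 / T w) ∼ e^x / 2` -/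
theorem Tin.ev (h : Tin T al q R) {a b : ℝ} (ha : a < 1) (hb : 1 < b) : ∃ x1, R < x1 ∧ 0 ≤ x1 ∧
    ∀ w : ℂ, x1 ≤ w.re → a * (Real.exp w.re / 2) < sg al q (T w)⁻¹ ∧
      sg al q (T w)⁻¹ < b * (Real.exp w.re / 2) := by
  obtain ⟨x, hx⟩ := eventually_atTop.1
    (eventually_comap.1 (h.lim.eventually (Ioo_mem_nhds ha hb)))
  refine ⟨max x (max (R + 1) 0), by simp, by simp, fun w hw => ?_⟩
  have h1 := hx w.re ((le_max_left _ _).trans hw) w rfl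
  have h2 := Real.exp_pos w.re
  have e : 2 / al * ‖T w‖ ^ q / Real.exp w.re = sg al q (T w)⁻¹ / (Real.exp w.re / 2) := by
    rw [sg_inv]; field_simp
  rw [e, lt_div_iff₀ (by positivity), div_lt_iff₀ (by positivity)] at h1
  exact h1

theorem ev_exp (A : ℝ) : ∃ x1, ∀ x, x1 ≤ x → A < Real.exp x / 2 :=
  ⟨2 * A, fun x hx => by linarith [Real.add_one_le_exp x]⟩

theorem ev_An (h : Tin T al q R) {th Lam θ : ℝ} (s1 B0 : ℝ) (ht : th < 1) (hL : 1 < Lam)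
    (hθ : θ ≤ 1) : ∃ x1, R < x1 ∧ 0 ≤ x1 ∧ ∀ w ∈ QQ x1 θ, s1 < Real.exp w.re / 2 ∧
      (T w)⁻¹ ∈ An al q th Lam (Real.exp w.re / 2) ∧ B0 < hh w := by
  obtain ⟨x, h1, h2, h3⟩ := h.ev ht hL
  obtain ⟨y, hy⟩ := ev_exp (max s1 B0)
  refine ⟨max x y, h1.trans_le (le_max_left _ _), h2.trans (le_max_left _ _), fun w hw => ?_⟩
  have a := hy w.re ((le_max_right _ _).trans hw.1)
  exact ⟨(le_max_left _ _).trans_lt a, h3 w ((le_max_left _ _).trans hw.1),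
    ((le_max_right _ _).trans_lt a).trans_le (le_hh (hw.2.trans hθ))⟩

theorem Tin.an (h : Tin T al q R) {w : ℂ} (hw : R < w.re) : AnalyticAt ℂ (fun w => (T w)⁻¹) w :=
  (h.hol.analyticAt ((isOpen_lt continuous_const Complex.continuous_re).mem_nhds hw)).inv
    (h.ne w hw)

theorem exp_half_smooth : ContDiff ℝ 1 fun w : ℂ => Real.exp w.re / 2 :=
  (ContDiff.exp (Complex.reCLM.contDiff (n := 1))).div_const _

variable [DecidableEq κ] {Q : Cells Γ} {F : (κ → Γ) → (ι ⊕ κ → ℂ) → ℂ} {P : ℕ → ι ⊕ κ → ℝ}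
  {lam Lam th s1 C1 θ : ℝ} {N : ℕ} {f0 : ℂ} {Z : ℝ → ℂ → ι ⊕ κ → ℂ}

theorem zz_c1 (hC : Cv Q F r P q al lam Lam th s1 C1 N f0 Z) (hT : Tin T al q R) {w : ℂ}
    (hw : R < w.re) (h1 : s1 < Real.exp w.re / 2)
    (h2 : (T w)⁻¹ ∈ An al q th Lam (Real.exp w.re / 2)) : ContDiffAt ℝ 1 (zz Z T) w :=
  ContDiffAt.comp (g := uncurry Z) (f := fun w : ℂ => (Real.exp w.re / 2, (T w)⁻¹)) w
    (hC.c1 _ h1 _ h2)
    (exp_half_smooth.contDiffAt.prodMk ((hT.an hw).contDiffAt.restrict_scalars ℝ))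

/-- everything holds on a far half strip -/
theorem ev_all (hC : Cv Q F r P q al lam Lam th s1 C1 N f0 Z) (hL : 1 < Lam) (hT : Tin T al q R)
    (hθ : θ ≤ 1) (hA : Adm r δ d Z T θ) (B0 : ℝ) : ∃ (n : ℕ) (x1 : ℝ), R < x1 ∧ 0 ≤ x1 ∧
      ∀ w ∈ QQ x1 θ, s1 < Real.exp w.re / 2 ∧ (T w)⁻¹ ∈ An al q th Lam (Real.exp w.re / 2) ∧
        B0 < hh w ∧ ball (zz Z T w) (Real.exp (-w.re) ^ n) ⊆ DomB r δ d (hh w) ∧
        zz Z T w ∈ DomB r δ d (hh w) ∧ ContDiffAt ℝ 1 (zz Z T) w := by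
  obtain ⟨n, y, hy⟩ := hA
  obtain ⟨x, h1, h2, h3⟩ := ev_An hT s1 B0 hC.th_lt hL hθ
  refine ⟨n, max x y, h1.trans_le (le_max_left _ _), h2.trans (le_max_left _ _), fun w hw => ?_⟩
  obtain ⟨a, b, c⟩ := h3 w (QQ_mono (le_max_left _ _) hw)
  have e := hy w (QQ_mono (le_max_right _ _) hw)
  exact ⟨a, b, c, e, e (mem_ball_self (by positivity)),
    zz_c1 hC hT (h1.trans_le ((le_max_left _ _).trans hw.1)) a b⟩

theorem mm_cont (hR : Rx f m φ M ω d r δ B0 C g) (hC : Cv Q F r P q al lam Lam th s1 C1 N f0 Z)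
    (hL : 1 < Lam) (hT : Tin T al q R) (hθ : θ ≤ 1) (hA : Adm r δ d Z T θ) :
    ∃ x1, ∀ j, ContinuousOn (mm m Z T j) (QQ x1 θ) := by
  obtain ⟨n, x, -, -, h⟩ := ev_all hC hL hT hθ hA B0
  refine ⟨x, fun j => ?_⟩
  exact (hR.mcont j).comp (f := fun w => (hh w, zz Z T w))
    (fun w hw => (hh_smooth.continuous.continuousAt.prodMk
      (h w hw).2.2.2.2.2.continuousAt).continuousWithinAt)
    fun w hw => ⟨(h w hw).2.2.1, (h w hw).2.2.2.2.1⟩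

/-- the form used by `Prof.cont` -/
theorem cont_slice {Φ : ℂ → ℂ} {x1 θ : ℝ} (h : ContinuousOn Φ (QQ x1 θ)) (x : ℝ) (hx : x1 ≤ x) :
    ContinuousOn (fun y : ℝ => Φ (x + y * Complex.I)) (Icc (-θ) θ) :=
  h.comp (by fun_prop) fun y hy => ⟨by simpa using hx, by simpa using abs_le.2 hy⟩

end Crest.Agent.N250.Ov

end
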