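import Crest.Agent.N250.B2.Defs2
import Crest.Agent.N250.Cc.Defs
import Crest.Agent.N250.St.Defs2

/-!
# Row 250, block (B2), helper21: from `Rx` + `Cv` + the reparametrisation `T` to the package `OV2`.
Definitions: the curve `zz` in the parameter space and the inputs of `ov2_of`.
-/

set_option autoImplicit false

open Set Metric Filter Topology Function MeasureTheory

noncomputable section

namespace Crest.Agent.N250.Ov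
open B2 Cc St

variable {ι κ Γ : Type}

/-- the point of the parameter space attached to `w` -/
def zz (Z : ℝ → ℂ → ι ⊕ κ → ℂ) (T : ℂ → ℂ) (w : ℂ) : ι ⊕ κ → ℂ := Z (Real.exp w.re / 2) (T w)⁻¹

/-- the contribution of the end `j` -/
def mm (m : κ → ℝ → (ι ⊕ κ → ℂ) → ℂ) (Z : ℝ → ℂ → ι ⊕ κ → ℂ) (T : ℂ → ℂ) (j : κ) (w : ℂ) : ℂ :=
  m j (hh w) (zz Z T w)

/-- the reparametrisation `t = 1 / T w` (`Ti.ties`, `β = 2 / al`) -/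
structure Tin (T : ℂ → ℂ) (al : ℝ) (q : ℕ) (R : ℝ) : Prop where
  hol : DifferentiableOn ℂ T {w | R < w.re}
  ne : ∀ w : ℂ, R < w.re → T w ≠ 0
  lim : Tendsto (fun w => 2 / al * ‖T w‖ ^ q / Real.exp w.re) (comap Complex.re atTop) (𝓝 1)

variable [Fintype ι] [Fintype κ]

/-- the sharp rate of the value along ONE family `Z` -/
def Val2 (Q : Cells Γ) (F : (κ → Γ) → (ι ⊕ κ → ℂ) → ℂ) (r c : ℝ) (q : ℕ) (al lam Lam th : ℝ)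
    (f0 : ℂ) (Z : ℝ → ℂ → ι ⊕ κ → ℂ) : Prop :=
  ∀ th', th ≤ th' → th' < 1 → ∀ lam', lam' < c → ∃ C' s2, ∀ s, s2 < s → ∀ t ∈ An al q th Lam s,
    Z s t ∈ Q.Dom r (fun _ : κ => Q.disc (th' * sg al q t)⁻¹) ∧
    ‖Fd Q F (th' * sg al q t)⁻¹ (Z s t) - f0‖ ≤
      C' * (Real.exp (-lam' * (th' * sg al q t)) + Real.exp (-(2 * lam) * s))

/-- admissibility of the curve for the parabola cut -/
def Adm (r δ : ℝ) (d : κ → ℝ) (Z : ℝ → ℂ → ι ⊕ κ → ℂ) (T : ℂ → ℂ) (θ : ℝ) : Prop :=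
  ∃ (n : ℕ) (x1 : ℝ), ∀ w ∈ QQ x1 θ,
    ball (zz Z T w) (Real.exp (-w.re) ^ n) ⊆ DomB r δ d (hh w)

/-- the profiles of the ends -/
def Prf (m : κ → ℝ → (ι ⊕ κ → ℂ) → ℂ) (Z : ℝ → ℂ → ι ⊕ κ → ℂ) (T : ℂ → ℂ) (θ : ℝ) : Prop :=
  ∃ (γ : κ → ℝ) (φ : κ → ℝ → ℂ) (M : κ → ℝ → ℝ) (x1 : ℝ),
    (∀ j, Prof (mm m Z T j) x1 θ (γ j) (φ j) (M j)) ∧
    ∑ j, ∫ s, M j s < ∑ j ∈ Finset.univ.filter fun j => γ j = 0,
      (∫ s : ℝ, Complex.exp ((s / 4 : ℝ) * Complex.I) * φ j s).re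

theorem QQ_mono {x x' θ : ℝ} (h : x ≤ x') : QQ x' θ ⊆ QQ x θ := fun _ hw => ⟨h.trans hw.1, hw.2⟩

theorem Prof_mono {Φ : ℂ → ℂ} {x x' θ γ : ℝ} {φ : ℝ → ℂ} {M : ℝ → ℝ} (h : Prof Φ x θ γ φ M)
    (hx : x ≤ x') : Prof Φ x' θ γ φ M := by
  obtain ⟨σ, Dom, C, k, h1, h2, h3, h4, h5⟩ := h.ex
  exact ⟨fun y hy => h.cont y (hx.trans hy), h.φ_int, h.M_int, h.M_nonneg, σ, Dom, C, k, h1, h2, h3,
    fun y s hy => h4 y s (QQ_mono hx hy),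
    fun s e he => (h5 s e he).mono fun y hy hq => hy (QQ_mono hx hq)⟩

/-- the statement proved in `Ov/Main` -/
def OvStmt : Prop :=
  ∀ (ι κ : Type) [Fintype ι] [Fintype κ] [DecidableEq κ] (f : ℝ → (ι ⊕ κ → ℂ) → ℂ)
    (m : κ → ℝ → (ι ⊕ κ → ℂ) → ℂ) (φ : ℂ → ℂ) (M : ℝ → ℝ) (ω : ℂ) (d : κ → ℝ) (r δ B0 C g : ℝ)
    (hB : 0 < B0) (P : ℕ → ι ⊕ κ → ℝ) (q : ℕ) (al lam Lam th s1 C1 : ℝ) (N : ℕ) (f0 : ℂ)
    (Z : ℝ → ℂ → ι ⊕ κ → ℂ) (T : ℂ → ℂ) (R θ : ℝ),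
    Rx f m φ M ω d r δ B0 C g → Ord P q al →
    Cv (cells B0 hB) (fam f B0) r P q al lam Lam th s1 C1 N f0 Z →
    1 / 4 < lam → 2 * lam ≤ th ^ 2 → 1 < Lam →
    Val2 (cells B0 hB) (fam f B0) r (1 / 2) q al lam Lam th f0 Z →
    Tin T al q R → 0 < θ → θ ≤ 1 → Adm r δ d Z T θ → Prf m Z T θ →
    ∃ (G : ℂ → ℂ) (G' : ℂ → ℂ →L[ℝ] ℂ) (x₀ : ℝ) (Φ : Option κ → ℂ → ℂ) (γ : Option κ → ℝ)
      (φ' : Option κ → ℝ → ℂ) (M' : Option κ → ℝ → ℝ), OV2 G G' x₀ θ Φ γ φ' M'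

end Crest.Agent.N250.Ov

end
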