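import Crest.Agent.N250.Ov.Cont

/-!
# Row 250, block (B2), helper21: the chain rule for `∂̄ G` and the bound of the `∂_s Z` term.
-/

set_option autoImplicit false
set_option linter.unusedSectionVars false

open Set Metric Filter Topology Function MeasureTheory

noncomputable section

namespace Crest.Agent.N250.Ov
open B2 Cc St

theorem split {E X : Type*} [NormedAddCommGroup E] [NormedSpace ℂ E] [NormedSpace ℝ E]
    [IsScalarTower ℝ ℂ E] [NormedAddCommGroup X] [NormedSpace ℂ X] [NormedSpace ℝ X]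
    [IsScalarTower ℝ ℂ X] {F : ℝ × E → X} {F' : ℝ × E →L[ℝ] X} {a : ℝ} {z : E} {A : X}
    {D : E →L[ℂ] X} (h : HasFDerivAt F F' (a, z)) (h1 : HasDerivAt (fun s => F (s, z)) A a)
    (h2 : HasFDerivAt (fun y => F (a, y)) D z) (s : ℝ) (v : E) :
    F' (s, v) = (s : ℂ) • A + D v := by
  have e1 : F' (1, 0) = A :=
    (HasFDerivAt.comp_hasDerivAt (f := fun s : ℝ => (s, z)) a h
      ((hasDerivAt_id a).prodMk (hasDerivAt_const a z))).unique h1
  have e2 : F' (0, v) = D v := by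
    have := (HasFDerivAt.comp (f := fun y : E => (a, y)) z h (hasFDerivAt_prodMk_right a z)).unique
      (h2.restrictScalars ℝ)
    exact congrArg (fun L : E →L[ℝ] X => L v) this
  have e : ((s, v) : ℝ × E) = s • ((1 : ℝ), (0 : E)) + (0, v) := by simp
  rw [e, map_add, map_smul, e1, e2, ← Complex.coe_algebraMap, algebraMap_smul]

theorem hh_der (w : ℂ) : ∃ H : ℂ →L[ℝ] ℝ, HasFDerivAt hh H w ∧
    H 1 = Real.exp w.re * St.chi w.im ∧ H Complex.I = Real.exp w.re * (-(3 / 4 * w.im)) := by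
  have a : HasFDerivAt (fun w : ℂ => w.re) Complex.reCLM w := Complex.reCLM.hasFDerivAt
  have b : HasFDerivAt (fun w : ℂ => w.im) Complex.imCLM w := Complex.imCLM.hasFDerivAt
  have c : HasDerivAt St.chi (-(3 / 4 * w.im)) w.im := by
    have := (((hasDerivAt_pow 2 w.im).const_mul 3).div_const 8).const_sub 1
    exact this.congr_deriv (by simp; ring)
  refine ⟨_, a.exp.mul (c.comp_hasFDerivAt w b), ?_, ?_⟩
  · simp [mul_comm]
  · simp

theorem An_nhds {al th Lam s : ℝ} {q : ℕ} {t : ℂ} (h0 : 0 < th * s) (h : t ∈ An al q th Lam s) :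
    An al q th Lam s ∈ 𝓝 t := by
  have h1 : al * ‖t‖ ^ q ≠ 0 := fun e => by
    have := h.1; rw [sg, e, inv_zero] at this; linarith
  have c : ContinuousAt (sg al q) t := ContinuousAt.inv₀ (by fun_prop) h1
  exact (continuousAt_const.eventually_lt c h.1).and (c.eventually_lt continuousAt_const h.2)

variable {ι κ Γ : Type} [Fintype ι] [Fintype κ] [DecidableEq κ]
variable {f : ℝ → (ι ⊕ κ → ℂ) → ℂ} {m : κ → ℝ → (ι ⊕ κ → ℂ) → ℂ} {φ : ℂ → ℂ} {M : ℝ → ℝ}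
  {ω : ℂ} {d : κ → ℝ} {r δ B0 C g : ℝ} {T : ℂ → ℂ} {al R : ℝ} {q : ℕ}
  {Q : Cells Γ} {F : (κ → Γ) → (ι ⊕ κ → ℂ) → ℂ} {P : ℕ → ι ⊕ κ → ℝ}
  {lam Lam th s1 C1 θ : ℝ} {N : ℕ} {f0 : ℂ} {Z : ℝ → ℂ → ι ⊕ κ → ℂ}

/-- the function of the Stokes argument -/
def GG (f : ℝ → (ι ⊕ κ → ℂ) → ℂ) (ω f0 : ℂ) (Z : ℝ → ℂ → ι ⊕ κ → ℂ) (T : ℂ → ℂ) (w : ℂ) : ℂ :=
  ω⁻¹ * (f (hh w) (zz Z T w) - f0)

/-- the factor in `OV2.dbar` -/
def WW (w : ℂ) : ℂ :=
  Real.exp w.re * ((St.chi w.im : ℂ) - (3 / 4 * w.im : ℝ) * Complex.I) * Real.exp (-hh w / 4)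

theorem le_WW {w : ℂ} (h : |w.im| ≤ 1) :
    Real.exp w.re / 2 * Real.exp (-hh w / 4) ≤ ‖WW w‖ := by
  have h1 : 1 / 2 ≤ ‖(St.chi w.im : ℂ) - (3 / 4 * w.im : ℝ) * Complex.I‖ := by
    refine le_trans ?_ (Complex.re_le_norm _)
    have := chi_ge h
    simp; linarith
  rw [WW, norm_mul, norm_mul, Complex.norm_real, Complex.norm_real,
    Real.norm_of_nonneg (Real.exp_pos _).le, Real.norm_of_nonneg (Real.exp_pos _).le, div_eq_mul_one_div]
  gcongr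

theorem WW_ne {w : ℂ} (h : |w.im| ≤ 1) : WW w ≠ 0 :=
  norm_pos_iff.1 (lt_of_lt_of_le (by positivity) (le_WW h))

theorem WW_cont : Continuous WW := by
  have := hh_smooth.continuous
  unfold WW St.chi
  fun_prop

theorem GG_c1 (hR : Rx f m φ M ω d r δ B0 C g) {w : ℂ} (h1 : B0 < hh w)
    (h2 : zz Z T w ∈ DomB r δ d (hh w)) (h3 : ContDiffAt ℝ 1 (zz Z T) w) :
    ContDiffAt ℝ 1 (GG f ω f0 Z T) w :=
  contDiffAt_const.mul ((ContDiffAt.comp (g := fun p : ℝ × (ι ⊕ κ → ℂ) => f p.1 p.2)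
    (f := fun w => (hh w, zz Z T w)) w (hR.c1.contDiffAt ((isOpen_dom hR).mem_nhds ⟨h1, h2⟩))
    (hh_smooth.contDiffAt.prodMk h3)).sub contDiffAt_const)

theorem GG_bar (hR : Rx f m φ M ω d r δ B0 C g) (hC : Cv Q F r P q al lam Lam th s1 C1 N f0 Z)
    (hT : Tin T al q R) {w : ℂ} (hw : R < w.re) (h1 : s1 < Real.exp w.re / 2)
    (h2 : (T w)⁻¹ ∈ An al q th Lam (Real.exp w.re / 2)) (h3 : B0 < hh w)
    (h4 : zz Z T w ∈ DomB r δ d (hh w)) :
    ∃ Z', ‖Z'‖ ≤ C1 * Real.exp (-lam * (Real.exp w.re / 2)) ∧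
      fderiv ℝ (GG f ω f0 Z T) w 1 + Complex.I * fderiv ℝ (GG f ω f0 Z T) w Complex.I =
        WW w * ∑ j, mm m Z T j w +
          ω⁻¹ * (Real.exp w.re / 2 : ℝ) * fderiv ℂ (f (hh w)) (zz Z T w) Z' := by
  obtain ⟨Z', hZ, hZ'⟩ := hC.ds _ h1 _ h2
  refine ⟨Z', hZ', ?_⟩
  obtain ⟨H, hH, H1, HI⟩ := hh_der w
  have a1 : HasFDerivAt (fun w : ℂ => Real.exp w.re / 2)
      ((Real.exp w.re / 2) • Complex.reCLM) w := by
    have a : HasFDerivAt (fun w : ℂ => w.re) Complex.reCLM w := Complex.reCLM.hasFDerivAt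
    exact ((Real.hasDerivAt_exp w.re).div_const 2).comp_hasFDerivAt w a
  have a2 := (hT.an hw).differentiableAt.hasDerivAt
  set τ := deriv (fun w => (T w)⁻¹) w
  have a3 := ((hC.c1 _ h1 _ h2).differentiableAt one_ne_zero).hasFDerivAt
  have a4 := ((hC.hol _ h1).differentiableAt
    (An_nhds (mul_pos hC.th_pos (hC.s1_pos.trans h1)) h2)).hasFDerivAt
  have a5 := split a3 hZ a4
  have a6 := ((hR.c1.contDiffAt (x := (hh w, zz Z T w))
    ((isOpen_dom hR).mem_nhds ⟨h3, h4⟩)).differentiableAt one_ne_zero).hasFDerivAt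
  have a7 := ((hR.hol _ h3).differentiableAt ((isOpen_DomB r δ d _).mem_nhds h4)).hasFDerivAt
  have a8 : ∀ (s : ℝ) v, _ = (s : ℂ) • (ω * (Real.exp (-hh w / 4) : ℂ) * ∑ j, mm m Z T j w) +
      fderiv ℂ (f (hh w)) (zz Z T w) v := split a6 (hR.der _ h3 _ h4) a7
  have b1 := HasFDerivAt.comp (f := fun w : ℂ => (Real.exp w.re / 2, (T w)⁻¹)) w a3
    (a1.prodMk (a2.hasFDerivAt.restrictScalars ℝ))
  have b2 := HasFDerivAt.comp (f := fun w : ℂ => (hh w, zz Z T w)) w a6 (hH.prodMk b1)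
  have b3 : HasFDerivAt (GG f ω f0 Z T) _ w := (b2.sub_const f0).const_mul ω⁻¹
  rw [b3.fderiv]
  simp only [smul_apply, ContinuousLinearMap.comp_apply,
    ContinuousLinearMap.prod_apply, a8, a5, H1, HI, map_add, map_smul, smul_eq_mul,
    ContinuousLinearMap.coe_restrictScalars', ContinuousLinearMap.toSpanSingleton_apply,
    Complex.reCLM_apply, Complex.one_re, Complex.I_re, mul_one, mul_zero, one_mul]
  have e : fderiv ℂ (Z (Real.exp w.re / 2)) (T w)⁻¹ (Complex.I * τ) =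
      Complex.I • fderiv ℂ (Z (Real.exp w.re / 2)) (T w)⁻¹ τ := by
    rw [← smul_eq_mul, map_smul]
  have hω := hR.ω_ne
  rw [e, map_smul, smul_eq_mul, WW]
  push_cast
  field_simp
  ring_nf
  rw [Complex.I_sq]
  ring

end Crest.Agent.N250.Ov

end
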