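import Crest.Agent.N250.Ov.Cont
import Crest.Agent.N250.Ti.Adm

/-!
# Row 250, block (B2), helper92: the profiles of the ends along the curve (`Prf`).
-/

set_option autoImplicit false

open Set Metric Filter Topology Function MeasureTheory

noncomputable section

namespace Crest.Agent.N250.Ov
open B2 Cc St Ti

theorem inv_sq_le' {a s : ℝ} (h : |s| ≤ a) : ((1 + a) ^ 2)⁻¹ ≤ (1 + s ^ 2)⁻¹ := by
  have h0 := abs_nonneg s
  refine inv_anti₀ (by positivity) ?_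
  rw [← sq_abs s]
  nlinarith

theorem rp_le {g : ℝ} (hg : 0 < g) {w : ℂ} (h : |w.im| ≤ 1) :
    hh w ^ (-(1 / 2 + g)) ≤ (5 / 8 : ℝ) ^ (-(1 / 2 + g)) * Real.exp (-(1 / 2 + g) * w.re) := by
  have h1 := Ti.le_hh h
  have h2 := Real.exp_pos w.re
  refine (Real.rpow_le_rpow_of_nonpos (by positivity) h1 (by linarith)).trans (le_of_eq ?_)
  rw [Real.mul_rpow (by norm_num) h2.le, ← Real.exp_mul, mul_comm w.re]

theorem tend_EE {g : ℝ} (hg : 0 < g) (θ : ℝ) :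
    Tendsto (fun w : ℂ => Real.exp (-(1 / 2 + g) * w.re)) (Fq θ) (𝓝 0) :=
  Real.tendsto_exp_atBot.comp ((re_atTop θ).const_mul_atTop_of_neg (by linarith))

variable {Φ u : ℂ → ℂ} {θ γ C K g : ℝ}

/-- the dominating function from the crude bound and the centre -/
theorem dom_of (hC : 0 ≤ C)
    (hb : ∀ᶠ w in Fq θ, ‖Φ w‖ ≤ C * ((1 + ‖u w‖) ^ 2)⁻¹ + K * Real.exp (-(1 / 2 + g) * w.re))
    (hc : ∃ C' x₀ : ℝ, 0 < C' ∧ ∀ x s, pt (sig γ) x s ∈ QQ x₀ θ →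
      1 + |s| ≤ C' * (1 + ‖u (pt (sig γ) x s)‖)) :
    ∃ (Dom : ℝ → ℝ) (x1 : ℝ), Integrable Dom ∧ ∀ x s, pt (sig γ) x s ∈ QQ x1 θ →
      ‖Φ (pt (sig γ) x s)‖ ≤ Dom s + K * Real.exp (-(1 / 2 + g) * x) := by
  obtain ⟨C', x0, hC', hc⟩ := hc
  obtain ⟨x1, hb⟩ := ev_Fq.1 hb
  refine ⟨fun s => C * C' ^ 2 * (1 + s ^ 2)⁻¹, max x0 x1,
    integrable_inv_one_add_sq.const_mul _, fun x s hq => ?_⟩
  have h1 := hb _ (QQ_mono (le_max_right _ _) hq)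
  have h2 := hc x s (QQ_mono (le_max_left _ _) hq)
  rw [Ti.pt_re] at h1
  refine h1.trans (add_le_add_left ?_ _)
  beta_reduce
  rw [mul_assoc]
  refine mul_le_mul_of_nonneg_left ?_ hC
  set n := ‖u (pt (sig γ) x s)‖
  have hn : 0 ≤ n := norm_nonneg _
  have h3 := inv_sq_le' (le_refl |s|)
  have h0 := abs_nonneg s
  refine le_trans ?_ (mul_le_mul_of_nonneg_left h3 (sq_nonneg C'))
  rw [← div_eq_mul_inv, le_div_iff₀ (by positivity), inv_mul_le_iff₀ (by positivity), ← mul_pow,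
    mul_comm]
  exact pow_le_pow_left₀ (by positivity) h2 2

/-- an end which does not contribute -/
theorem prof_zero (h0 : 0 < θ) (hg : 0 < g) {x0 x1 : ℝ} (hc : ContinuousOn Φ (QQ x0 θ))
    {Dom : ℝ → ℝ} (hD : Integrable Dom) (hb : ∀ x s, pt (sig γ) x s ∈ QQ x1 θ →
      ‖Φ (pt (sig γ) x s)‖ ≤ Dom s + K * Real.exp (-(1 / 2 + g) * x))
    (hl : Tendsto Φ (Fq θ) (𝓝 0)) : Prof Φ (max x0 x1) θ γ (fun _ => 0) fun _ => 0 := by
  refine ⟨fun x hx => cont_slice hc x ((le_max_left _ _).trans hx), integrable_zero _ _ _,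
    integrable_zero _ _ _, fun _ => le_rfl, sig γ, Dom, K, g, hg, hD, Or.inr fun _ => rfl,
    fun x s hq => hb x s (QQ_mono (le_max_right _ _) hq), fun s e he => ?_⟩
  have h1 := (hl.comp (tendsto_pt h0 γ s)).norm.eventually (ge_mem_nhds (by simpa using he))
  filter_upwards [h1] with x hx _
  simpa using hx

variable {φ : ℂ → ℂ} {M : ℝ → ℝ} {p : ℕ}

theorem ker_C (h : Ker φ M p C) : 0 ≤ C := by
  have := (h.M_nonneg 0).trans (h.M_le 0)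
  simpa using this

theorem ker_M_int (h : Ker φ M p C) : Integrable M := by
  refine (integrable_inv_one_add_sq.const_mul C).mono' h.M_cont.aestronglyMeasurable
    (Eventually.of_forall fun s => ?_)
  rw [Real.norm_of_nonneg (h.M_nonneg s)]
  refine (h.M_le s).trans ?_
  rw [div_eq_mul_inv]
  exact mul_le_mul_of_nonneg_left (inv_sq_le' le_rfl) (ker_C h)

theorem ker_φ_int (h : Ker φ M p C) {e : ℝ} (he : 0 ≤ e) :
    Integrable fun s : ℝ => φ (e + s * Complex.I) := by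
  have hm : ∀ s : ℝ, -1 ≤ ((e : ℂ) + s * Complex.I).re := fun s => by simp; linarith
  have hc : Continuous fun s : ℝ => φ (e + s * Complex.I) :=
    h.cont.comp_continuous (by fun_prop) hm
  refine (integrable_inv_one_add_sq.const_mul C).mono' hc.aestronglyMeasurable
    (Eventually.of_forall fun s => ?_)
  refine (h.dec _ (hm s)).trans ?_
  rw [div_eq_mul_inv]
  refine mul_le_mul_of_nonneg_left (inv_sq_le' ?_) (ker_C h)
  simpa using Complex.abs_im_le_norm ((e : ℂ) + s * Complex.I)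

/-- a tie -/
theorem prof_tie (h0 : 0 < θ) (hg : 0 < g) (hK : Ker φ M p C) {x0 x1 : ℝ}
    (hc : ContinuousOn Φ (QQ x0 θ))
    {Dom : ℝ → ℝ} (hD : Integrable Dom) (hb : ∀ x s, pt (sig γ) x s ∈ QQ x1 θ →
      ‖Φ (pt (sig γ) x s)‖ ≤ Dom s + K * Real.exp (-(1 / 2 + g) * x))
    (hs : ∀ V ε : ℝ, 0 < ε → ∀ᶠ w in Fq θ, ‖u w‖ ≤ V → -1 ≤ (u w).re →
      ‖Φ w - φ (u w)‖ ≤ M (u w).im + ε) {e : ℝ} (he : 0 ≤ e)
    (hl : ∀ s : ℝ, Tendsto (fun x => u (pt (sig γ) x s)) atTop (𝓝 (e + s * Complex.I))) :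
    Prof Φ (max x0 x1) θ γ (fun s => φ (e + s * Complex.I)) M := by
  refine ⟨fun x hx => cont_slice hc x ((le_max_left _ _).trans hx), ker_φ_int hK he,
    ker_M_int hK, hK.M_nonneg, sig γ, Dom, K, g, hg, hD, Or.inr fun _ => rfl,
    fun x s hq => hb x s (QQ_mono (le_max_right _ _) hq), fun s ε hε => ?_⟩
  have hre : -1 < ((e : ℂ) + s * Complex.I).re := by simp; linarith
  have him : ((e : ℂ) + s * Complex.I).im = s := by simp
  have h1 := (tendsto_pt h0 γ s).eventually (hs (‖(e : ℂ) + s * Complex.I‖ + 1) (ε / 3) (by linarith))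
  have h2 := (hl s).norm.eventually (ge_mem_nhds (lt_add_one _))
  have h3 := ((Complex.continuous_re.tendsto _).comp (hl s)).eventually (le_mem_nhds hre)
  have h4 : ContinuousAt φ (e + s * Complex.I) :=
    hK.cont.continuousAt (Complex.continuous_re.continuousAt.preimage_mem_nhds (Ici_mem_nhds hre))
  have h5 := Metric.tendsto_nhds.1 (h4.tendsto.comp (hl s)) (ε / 3) (by linarith)
  have h6 := ((hK.M_cont.tendsto _).comp ((Complex.continuous_im.tendsto _).comp (hl s))).eventually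
    (ge_mem_nhds (show M ((e : ℂ) + s * Complex.I).im < M s + ε / 3 by rw [him]; linarith))
  filter_upwards [h1, h2, h3, h5, h6] with x a1 a2 a3 a5 a6 _
  have b1 := a1 a2 a3
  rw [dist_eq_norm] at a5
  simp only [Function.comp] at a5 a6
  linarith [norm_sub_le_norm_sub_add_norm_sub (Φ (pt (sig γ) x s)) (φ (u (pt (sig γ) x s)))
    (φ (e + s * Complex.I))]

variable {ι κ : Type} [Fintype ι] [Fintype κ]
variable {f : ℝ → (ι ⊕ κ → ℂ) → ℂ} {m : κ → ℝ → (ι ⊕ κ → ℂ) → ℂ}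
  {ω : ℂ} {d : κ → ℝ} {r δ B0 : ℝ} {z : ℂ → ι ⊕ κ → ℂ}

theorem key_eq {a : ℂ} (ha : a ≠ 0) (B e : ℝ) :
    a * ((B - e : ℝ) + (-2 / a + e - B)) = -2 := by
  push_cast; field_simp; ring

theorem crude_ev (hR : Rx f m φ M ω d r δ B0 C g) (h1 : θ ≤ 1)
    (hd : ∀ᶠ w in Fq θ, z w ∈ DomB r δ d (hh w)) (j : κ) (ha : ∀ᶠ w in Fq θ, aa (z w) j ≠ 0) :
    ∀ᶠ w in Fq θ, ‖m j (hh w) (z w)‖ ≤ C * ((1 + ‖-2 / aa (z w) j + d j - hh w‖) ^ 2)⁻¹ +
      C * (5 / 8 : ℝ) ^ (-(1 / 2 + g)) * Real.exp (-(1 / 2 + g) * w.re) := by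
  filter_upwards [hd, ha, (hh_atTop h1).eventually_gt_atTop B0, ev_im θ] with w a1 a2 a3 a4
  refine (hR.crude' a3 a1 j _ (key_eq a2 _ _)).trans ?_
  rw [mul_add, mul_assoc]
  exact add_le_add_right (mul_le_mul_of_nonneg_left (rp_le hR.g_pos (a4.trans h1)) hR.C_nonneg) _

theorem sharp_ev (hR : Rx f m φ M ω d r δ B0 C g) (h1 : θ ≤ 1)
    (hd : ∀ᶠ w in Fq θ, z w ∈ DomB r δ d (hh w)) (hz : Tendsto z (Fq θ) (𝓝 0)) (j : κ)
    (ha : ∀ᶠ w in Fq θ, aa (z w) j ≠ 0) (V ε : ℝ) (hε : 0 < ε) :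
    ∀ᶠ w in Fq θ, ‖-2 / aa (z w) j + d j - hh w‖ ≤ V → -1 ≤ (-2 / aa (z w) j + d j - hh w).re →
      ‖m j (hh w) (z w) - φ (-2 / aa (z w) j + d j - hh w)‖ ≤
        M (-2 / aa (z w) j + d j - hh w).im + ε := by
  obtain ⟨B1, r2, hr2, hs⟩ := hR.sharp V ε hε
  filter_upwards [hd, ha, (hh_atTop h1).eventually_gt_atTop B1,
    hz.norm.eventually (gt_mem_nhds (by simpa using hr2))] with w a1 a2 a3 a4
  exact hs _ a3 _ a1 a4 j _ (key_eq a2 _ _)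

/-- the data attached to one end -/
def One (Φ : ℂ → ℂ) (θ : ℝ) (M : ℝ → ℝ) (γ : ℝ) (φ' : ℝ → ℂ) (M' : ℝ → ℝ) (x : ℝ) : Prop :=
  Prof Φ x θ γ φ' M' ∧ ∫ s, M' s ≤ ∫ s, M s ∧
    0 ≤ (∫ s : ℝ, Complex.exp ((s / 4 : ℝ) * Complex.I) * φ' s).re

theorem one_lvl (hR : Rx f m φ M ω d r δ B0 C g) (h0 : 0 < θ) (h1 : θ ≤ 1)
    (hd : ∀ᶠ w in Fq θ, z w ∈ DomB r δ d (hh w)) (hz : Tendsto z (Fq θ) (𝓝 0)) (j : κ) {x0 : ℝ}
    (hc : ContinuousOn (fun w => m j (hh w) (z w)) (QQ x0 θ))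
    (ha : ∀ᶠ w in Fq θ, aa (z w) j ≠ 0) (hl : Cls (Fq θ) fun w => -2 / aa (z w) j + d j) :
    ∃ γ φ' M' x, One (fun w => m j (hh w) (z w)) θ M γ φ' M' x := by
  obtain ⟨γ, hctr, hg⟩ := hl.geo h0 h1
  have hb := crude_ev hR h1 hd j ha
  obtain ⟨Dom, x1, hD, hb'⟩ := dom_of (u := fun w => -2 / aa (z w) j + d j - hh w) (γ := γ)
    hR.C_nonneg hb hctr
  rcases hg with hg | ⟨e, he, hg⟩
  · refine ⟨γ, fun _ => 0, fun _ => 0, _, prof_zero h0 hR.g_pos hc hD hb' ?_, ?_, by simp⟩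
    · refine squeeze_zero_norm' hb ?_
      have t1 : Tendsto (fun w => ((1 + ‖-2 / aa (z w) j + d j - hh w‖) ^ 2)⁻¹) (Fq θ) (𝓝 0) :=
        tendsto_inv_atTop_zero.comp ((tendsto_pow_atTop two_ne_zero).comp
          (tendsto_atTop_add_const_left _ 1 hg))
      simpa using (t1.const_mul C).add
        ((tend_EE hR.g_pos θ).const_mul (C * (5 / 8 : ℝ) ^ (-(1 / 2 + g))))
    · simpa using integral_nonneg hR.ker.M_nonneg
  · exact ⟨γ, _, M, _, prof_tie (u := fun w => -2 / aa (z w) j + d j - hh w) h0 hR.g_pos hR.ker hc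
      hD hb' (sharp_ev hR h1 hd hz j ha) he hg, le_rfl, hR.ker.pos0 e he⟩

theorem one_high (hR : Rx f m φ M ω d r δ B0 C g) (h0 : 0 < θ) (h1 : θ ≤ 1)
    (hd : ∀ᶠ w in Fq θ, z w ∈ DomB r δ d (hh w)) (j : κ) {x0 : ℝ}
    (hc : ContinuousOn (fun w => m j (hh w) (z w)) (QQ x0 θ))
    (ha : Tendsto (fun w => ‖aa (z w) j‖ * Real.exp w.re) (Fq θ) (𝓝 0)) :
    ∃ γ φ' M' x, One (fun w => m j (hh w) (z w)) θ M γ φ' M' x := by
  have hb : ∀ᶠ w in Fq θ, ‖m j (hh w) (z w)‖ ≤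
      C * (5 / 8 : ℝ) ^ (-(1 / 2 + g)) * Real.exp (-(1 / 2 + g) * w.re) := by
    filter_upwards [hd, ha.eventually (ge_mem_nhds one_pos), (hh_atTop h1).eventually_gt_atTop B0,
      ev_im θ] with w a1 a2 a3 a4
    have hp := Ti.hh_pos (a4.trans h1)
    have a5 : ‖aa (z w) j‖ ≤ 1 / hh w := by
      rw [le_div_iff₀ hp]
      exact (mul_le_mul_of_nonneg_left (Ti.hh_le w) (norm_nonneg _)).trans a2
    refine (hR.crude0 _ a3 _ a1 j a5).trans ?_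
    rw [mul_assoc]
    exact mul_le_mul_of_nonneg_left (rp_le hR.g_pos (a4.trans h1)) hR.C_nonneg
  obtain ⟨x1, hb'⟩ := ev_Fq.1 hb
  refine ⟨0, fun _ => 0, fun _ => 0, _, prof_zero (Dom := fun _ => 0) (x1 := x1)
    (K := C * (5 / 8 : ℝ) ^ (-(1 / 2 + g))) h0 hR.g_pos hc
    (integrable_zero _ _ _) (fun x s hq => ?_) ?_, ?_, by simp⟩
  · simpa using hb' _ hq
  · refine squeeze_zero_norm' hb ?_
    simpa using (tend_EE hR.g_pos θ).const_mul (C * (5 / 8 : ℝ) ^ (-(1 / 2 + g)))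
  · simpa using integral_nonneg hR.ker.M_nonneg

theorem one_top (hR : Rx f m φ M ω d r δ B0 C g) (h0 : 0 < θ) (h1 : θ ≤ 1)
    (hd : ∀ᶠ w in Fq θ, z w ∈ DomB r δ d (hh w)) (hz : Tendsto z (Fq θ) (𝓝 0)) (j : κ) {x0 : ℝ}
    (hc : ContinuousOn (fun w => m j (hh w) (z w)) (QQ x0 θ))
    (ha : ∀ᶠ w in Fq θ, aa (z w) j ≠ 0) (hl : Tie (Fq θ) (fun w => -2 / aa (z w) j + d j) 0 0) :
    ∃ x, Prof (fun w => m j (hh w) (z w)) x θ 0 (fun s => φ (s * Complex.I)) M := by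
  have hb := crude_ev hR h1 hd j ha
  obtain ⟨Dom, x1, hD, hb'⟩ := dom_of (u := fun w => -2 / aa (z w) j + d j - hh w) (γ := 0)
    hR.C_nonneg hb (hl.ctr h1)
  have := prof_tie (u := fun w => -2 / aa (z w) j + d j - hh w) h0 hR.g_pos hR.ker hc
    hD hb' (sharp_ev hR h1 hd hz j ha) (e := 0) le_rfl fun s => by simpa using hl.lim h0 s
  exact ⟨_, by simpa using this⟩

/-- **the profiles of all ends** -/
theorem prf_of (hR : Rx f m φ M ω d r δ B0 C g) (h0 : 0 < θ) (h1 : θ ≤ 1)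
    {Z : ℝ → ℂ → ι ⊕ κ → ℂ} {T : ℂ → ℂ}
    (hc : ∃ x1, ∀ j, ContinuousOn (mm m Z T j) (QQ x1 θ))
    (hd : ∀ᶠ w in Fq θ, zz Z T w ∈ DomB r δ d (hh w)) (hz : Tendsto (zz Z T) (Fq θ) (𝓝 0))
    (j0 : κ) (top : Tie (Fq θ) (fun w => -2 / aa (zz Z T w) j0 + d j0) 0 0)
    (top' : ∀ᶠ w in Fq θ, aa (zz Z T w) j0 ≠ 0)
    (each : ∀ j, (Cls (Fq θ) (fun w => -2 / aa (zz Z T w) j + d j) ∧
      ∀ᶠ w in Fq θ, aa (zz Z T w) j ≠ 0) ∨
      Tendsto (fun w => ‖aa (zz Z T w) j‖ * Real.exp w.re) (Fq θ) (𝓝 0)) : Prf m Z T θ := by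
  classical
  obtain ⟨x0, hc⟩ := hc
  have key : ∀ j, ∃ γ φ' M' x, One (mm m Z T j) θ M γ φ' M' x ∧
      (j = j0 → γ = 0 ∧ φ' = fun s : ℝ => φ (s * Complex.I)) := by
    intro j
    by_cases hj : j = j0
    · subst hj
      obtain ⟨x, hx⟩ := one_top hR h0 h1 hd hz j (hc j) top' top
      exact ⟨0, _, M, x, ⟨hx, le_rfl, by simpa using hR.ker.pos0 0 le_rfl⟩, fun _ => ⟨rfl, rfl⟩⟩
    · rcases each j with ⟨a, b⟩ | a
      · obtain ⟨γ, φ', M', x, h⟩ := one_lvl hR h0 h1 hd hz j (hc j) b a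
        exact ⟨γ, φ', M', x, h, fun e => (hj e).elim⟩
      · obtain ⟨γ, φ', M', x, h⟩ := one_high hR h0 h1 hd j (hc j) a
        exact ⟨γ, φ', M', x, h, fun e => (hj e).elim⟩
  choose γ φ' M' x hk hj using key
  obtain ⟨X, hX⟩ := (Set.finite_range x).bddAbove
  refine ⟨γ, φ', M', X, fun j => Prof_mono (hk j).1 (hX ⟨j, rfl⟩), ?_⟩
  obtain ⟨e1, e2⟩ := hj j0 rfl
  have s1 : ∑ j, ∫ s, M' j s ≤ Fintype.card κ * ∫ s, M s := by
    simpa [nsmul_eq_mul] using Finset.sum_le_card_nsmul Finset.univ (fun j => ∫ s, M' j s)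
      (∫ s, M s) fun j _ => (hk j).2.1
  have s2 := Finset.single_le_sum (s := Finset.univ.filter fun j => γ j = 0)
    (f := fun j => (∫ s : ℝ, Complex.exp ((s / 4 : ℝ) * Complex.I) * φ' j s).re)
    (fun j _ => (hk j).2.2) (a := j0) (by simp [e1])
  have s3 := hR.ker.pos
  simp only [e2] at s2
  convert s1.trans_lt (s3.trans_le s2)

end Crest.Agent.N250.Ov

end
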